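import Vale.Agent.P281.H713.TZ.Iface

/-! P281, theorem TZ, row Z3: `det (A, P)` is a combination of the minors of `A` (expansion of an
alternating form), and Cramer's formula for a complement of the columns `J`. -/

open Set Filter Metric Vale.Agent.P281 Vale.Agent.P272.K
open Vale.Agent.P281.MF Vale.Agent.P281.H713 Vale.Agent.P281.H713.TZ

noncomputable section

namespace Vale.Agent.P281.H431

section D
variable {n p : ℕ} {ι : Type} [Fintype ι] [DecidableEq ι]

omit [Fintype ι] in
theorem upd_row (R : Cm n →ₗ[ℂ] ((Fin p ⊕ ι) → ℂ)) (T : ι → (Fin p ⊕ ι) → ℂ)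
    (a : Fin p → Cm n) (i : Fin p) (v : Cm n) :
    Matrix.of (Sum.elim (fun i' => R (Function.update a i v i')) T) =
      (Matrix.of (Sum.elim (fun i' => R (a i')) T)).updateRow (Sum.inl i) (R v) := by
  have h1 : (fun i' => R (Function.update a i v i')) =
      Function.update (fun i' => R (a i')) i (R v) := by
    funext i'
    by_cases h : i' = i
    · subst h; simp
    · simp [Function.update_of_ne h]
  rw [h1, Sum.elim_update_left]
  rfl

/-- the determinant of a matrix whose first `p` rows are linear images of `p` vectors -/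
def DA (R : Cm n →ₗ[ℂ] ((Fin p ⊕ ι) → ℂ)) (T : ι → (Fin p ⊕ ι) → ℂ) :
    (Cm n) [⋀^Fin p]→ₗ[ℂ] ℂ where
  toFun a := Matrix.det (Matrix.of (Sum.elim (fun i => R (a i)) T))
  map_update_add' := by
    intro inst a i x y
    have hi : inst = instDecidableEqFin p := Subsingleton.elim _ _
    subst hi
    simp only [upd_row, map_add, Matrix.det_updateRow_add]
  map_update_smul' := by
    intro inst a i c x
    have hi : inst = instDecidableEqFin p := Subsingleton.elim _ _
    subst hi
    simp only [upd_row, map_smul, Matrix.det_updateRow_smul, smul_eq_mul]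
  map_eq_zero_of_eq' := by
    intro a i j h hij
    refine Matrix.det_zero_of_row_eq (i := Sum.inl i) (j := Sum.inl j)
      (fun he => hij (Sum.inl_injective he)) ?_
    change R (a i) = R (a j)
    rw [h]

theorem DA_apply (R : Cm n →ₗ[ℂ] ((Fin p ⊕ ι) → ℂ)) (T : ι → (Fin p ⊕ ι) → ℂ)
    (a : Fin p → Cm n) : DA R T a = Matrix.det (Matrix.of (Sum.elim (fun i => R (a i)) T)) := rfl

end D

/-- expansion of an alternating form in minors -/
theorem alt_expand {n p : ℕ} (D : (Cm n) [⋀^Fin p]→ₗ[ℂ] ℂ) (a : Fin p → Cm n) :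
    D a = ∑ κ : Fin p → Fin n, (D (fun i => Pi.single (κ i) 1) / (p.factorial : ℂ)) *
      Matrix.det (Matrix.of fun i j : Fin p => a i (κ j)) := by
  classical
  have h0 : ∀ i, a i = ∑ k, a i k • (Pi.single k (1 : ℂ) : Cm n) := by
    intro i
    funext x
    simp [Finset.sum_apply, Pi.single_apply]
  have h1 : D a = ∑ κ : Fin p → Fin n, (∏ i, a i (κ i)) * D (fun i => Pi.single (κ i) 1) := by
    have : D a = D.toMultilinearMap (fun i => ∑ k, a i k • (Pi.single k (1 : ℂ) : Cm n)) :=
      congrArg D.toMultilinearMap (funext h0)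
    rw [this, MultilinearMap.map_sum]
    refine Finset.sum_congr rfl fun κ _ => ?_
    rw [MultilinearMap.map_smul_univ]
    rfl
  have hp : (p.factorial : ℂ) ≠ 0 := by exact_mod_cast Nat.factorial_ne_zero p
  have h2 : ∀ σ : Equiv.Perm (Fin p), (∑ κ : Fin p → Fin n, D (fun i => Pi.single (κ i) 1) *
      ((Equiv.Perm.sign σ : ℤ) : ℂ) * ∏ i, a (σ i) (κ i)) = D a := by
    intro σ
    rw [h1]
    let φ : (Fin p → Fin n) ≃ (Fin p → Fin n) := Equiv.arrowCongr σ (Equiv.refl _)
    refine Fintype.sum_equiv φ _ _ fun κ => ?_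
    have h3 : ∀ i, φ κ i = κ (σ.symm i) := fun i => rfl
    have h4 : (∏ i, a i (φ κ i)) = ∏ i, a (σ i) (κ i) := by
      rw [← Equiv.prod_comp σ]
      refine Finset.prod_congr rfl fun i _ => ?_
      rw [h3, Equiv.symm_apply_apply]
    have h5 : D (fun i => Pi.single (κ i) 1) =
        (Equiv.Perm.sign σ) • D (fun i => Pi.single (φ κ i) 1) := by
      have := D.map_perm (fun i => (Pi.single (φ κ i) 1 : Cm n)) σ
      rw [← this]
      congr 1
      funext i
      simp [Function.comp, h3]
    rw [h4, h5]
    have h6 : ((Equiv.Perm.sign σ) • D (fun i => Pi.single (φ κ i) 1) : ℂ) =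
        ((Equiv.Perm.sign σ : ℤ) : ℂ) * D (fun i => Pi.single (φ κ i) 1) := by
      rw [Units.smul_def, zsmul_eq_mul]
    rw [h6]
    have h7 : ((Equiv.Perm.sign σ : ℤ) : ℂ) * ((Equiv.Perm.sign σ : ℤ) : ℂ) = 1 := by
      have : ((Equiv.Perm.sign σ : ℤ)) * ((Equiv.Perm.sign σ : ℤ)) = 1 := by
        rw [← Units.val_mul, Int.units_mul_self, Units.val_one]
      exact_mod_cast this
    linear_combination (D (fun i => Pi.single (φ κ i) 1) * ∏ i, a (σ i) (κ i)) * h7
  have h8 : (∑ κ : Fin p → Fin n, (D (fun i => Pi.single (κ i) 1) / (p.factorial : ℂ)) *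
      Matrix.det (Matrix.of fun i j : Fin p => a i (κ j))) =
      (1 / (p.factorial : ℂ)) * ∑ σ : Equiv.Perm (Fin p), ∑ κ : Fin p → Fin n,
        D (fun i => Pi.single (κ i) 1) * ((Equiv.Perm.sign σ : ℤ) : ℂ) * ∏ i, a (σ i) (κ i) := by
    rw [Finset.sum_comm, Finset.mul_sum]
    refine Finset.sum_congr rfl fun κ _ => ?_
    rw [Matrix.det_apply, Finset.mul_sum, Finset.mul_sum]
    refine Finset.sum_congr rfl fun σ _ => ?_
    simp only [Matrix.of_apply, Units.smul_def, zsmul_eq_mul]
    ring
  rw [h8, Finset.sum_congr rfl fun σ _ => h2 σ, Finset.sum_const, Finset.card_univ,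
    Fintype.card_perm, Fintype.card_fin, nsmul_eq_mul]
  field_simp

theorem jp_expand (n p : ℕ) (E₀ : Type) [NormedAddCommGroup E₀] [NormedSpace ℂ E₀]
    [FiniteDimensional ℂ E₀] (e₀ : Cm n ≃L[ℂ] (Cm p × E₀)) (P : Cm n →L[ℂ] E₀) :
    ∃ c : (Fin p → Fin n) → ℂ, ∀ A : Cm n →L[ℂ] Cm p, JP e₀ A P = ∑ κ, c κ * mnr A κ := by
  classical
  let b₀ := Module.finBasis ℂ E₀
  let b : Module.Basis (Fin p ⊕ Fin (Module.finrank ℂ E₀)) ℂ (Cm p × E₀) :=
    (Pi.basisFun ℂ (Fin p)).prod b₀
  -- linear functional `v` on `Cm n` evaluated on the basis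
  let R : Cm n →ₗ[ℂ] ((Fin p ⊕ Fin (Module.finrank ℂ E₀)) → ℂ) :=
    { toFun := fun v j => ∑ k, e₀.symm (b j) k * v k
      map_add' := fun v w => by
        funext j; simp only [Pi.add_apply, mul_add, Finset.sum_add_distrib]
      map_smul' := fun c v => by
        funext j
        simp only [Pi.smul_apply, smul_eq_mul, RingHom.id_apply, Finset.mul_sum]
        exact Finset.sum_congr rfl fun k _ => by ring }
  let T : Fin (Module.finrank ℂ E₀) → (Fin p ⊕ Fin (Module.finrank ℂ E₀)) → ℂ :=
    fun i j => b₀.repr (P (e₀.symm (b j))) i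
  refine ⟨fun κ => DA R T (fun i => Pi.single (κ i) 1) / (p.factorial : ℂ), fun A => ?_⟩
  have h1 : JP e₀ A P = DA R T (fun i k => A (Pi.single k 1) i) := by
    rw [DA_apply]
    unfold JP
    have h2 : ((A.prod P).comp (e₀.symm : (Cm p × E₀) →L[ℂ] Cm n)).det =
      LinearMap.det (((A.prod P).comp (e₀.symm : (Cm p × E₀) →L[ℂ] Cm n) :
        (Cm p × E₀) →L[ℂ] (Cm p × E₀)) : (Cm p × E₀) →ₗ[ℂ] (Cm p × E₀)) := rfl
    rw [h2, ← LinearMap.det_toMatrix b]
    congr 1
    ext i j
    rw [LinearMap.toMatrix_apply]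
    rcases i with i | i
    · have h3 : A (e₀.symm (b j)) i = ∑ k, e₀.symm (b j) k * A (Pi.single k 1) i := by
        have h4 : e₀.symm (b j) = ∑ k, e₀.symm (b j) k • (Pi.single k (1 : ℂ) : Cm n) := by
          funext x
          simp [Finset.sum_apply, Pi.single_apply]
        conv_lhs => rw [h4]
        rw [map_sum, Finset.sum_apply]
        refine Finset.sum_congr rfl fun k _ => ?_
        rw [map_smul, Pi.smul_apply, smul_eq_mul]
      simp only [b, Module.Basis.prod_repr_inl, Matrix.of_apply, Sum.elim_inl]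
      exact h3
    · simp only [b, Module.Basis.prod_repr_inr, Matrix.of_apply, Sum.elim_inr]
      rfl
  rw [h1, alt_expand]
  rfl

theorem linPart : LinPart := by
  intro n p E₀ _ _ _ e₀
  refine ⟨jp_expand n p E₀ e₀, fun J hJ => ?_⟩
  classical
  let C : Type := {k : Fin n // k ∉ Set.range J}
  have hcard : Fintype.card C = Module.finrank ℂ E₀ := by
    have h1 : Module.finrank ℂ (Cm n) = p + Module.finrank ℂ E₀ := by
      rw [e₀.toLinearEquiv.finrank_eq, Module.finrank_prod]
      simp [Cm]
    have h2 : Fintype.card C = n - p := by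
      have h3 := Fintype.card_subtype_compl (fun k : Fin n => k ∈ Set.range J)
      have h4 : Fintype.card {k : Fin n // k ∈ Set.range J} = p := by
        have := Set.card_range_of_injective hJ
        rw [Fintype.card_fin] at this
        exact this
      rw [Fintype.card_fin, h4] at h3
      exact h3
    have h5 : Module.finrank ℂ (Cm n) = n := by simp [Cm]
    omega
  let φ : (C → ℂ) ≃ₗ[ℂ] E₀ := LinearEquiv.ofFinrankEq _ _ (by
    rw [Module.finrank_fintype_fun_eq_card, hcard])
  let P₀ : Cm n →ₗ[ℂ] E₀ := φ.toLinearMap ∘ₗ (LinearMap.funLeft ℂ ℂ (fun k : C => k.1))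
  let ext : (C → ℂ) →ₗ[ℂ] Cm n :=
    { toFun := fun v k => if h : k ∉ Set.range J then v ⟨k, h⟩ else 0
      map_add' := fun v w => by
        funext k
        by_cases h : k ∉ Set.range J
        · simp only [Pi.add_apply, dif_pos h]
        · simp only [Pi.add_apply, dif_neg h, add_zero]
      map_smul' := fun c v => by
        funext k
        by_cases h : k ∉ Set.range J
        · simp only [Pi.smul_apply, dif_pos h, RingHom.id_apply]
        · simp only [Pi.smul_apply, dif_neg h, smul_zero, RingHom.id_apply] }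
  let s₀ : E₀ →ₗ[ℂ] Cm n := ext ∘ₗ φ.symm.toLinearMap
  refine ⟨LinearMap.toContinuousLinearMap P₀, LinearMap.toContinuousLinearMap s₀, ?_, ?_, ?_⟩
  · intro v
    change φ (fun k : C => ext (φ.symm v) k.1) = v
    have : (fun k : C => ext (φ.symm v) k.1) = φ.symm v := by
      funext k
      change (if h : k.1 ∉ Set.range J then φ.symm v ⟨k.1, h⟩ else 0) = _
      rw [dif_pos k.2]
    rw [this, LinearEquiv.apply_symm_apply]
  · intro b
    change φ (fun k : C => (Pi.single (J b) (1 : ℂ) : Cm n) k.1) = 0
    have : (fun k : C => (Pi.single (J b) (1 : ℂ) : Cm n) k.1) = 0 := by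
      funext k
      rw [Pi.zero_apply, Pi.single_apply, if_neg]
      intro h
      exact k.2 ⟨b, h.symm⟩
    rw [this, map_zero]
  · intro A hA
    set M : Matrix (Fin p) (Fin p) ℂ := Matrix.of fun a b : Fin p => A (Pi.single (J b) 1) a with hM
    have hMd : M.det ≠ 0 := hA
    have hAx : ∀ x : Cm n, A x = ∑ k, x k • A (Pi.single k 1) := by
      intro x
      have h4 : x = ∑ k, x k • (Pi.single k (1 : ℂ) : Cm n) := by
        funext y
        simp [Finset.sum_apply, Pi.single_apply]
      conv_lhs => rw [h4]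
      rw [map_sum]
      exact Finset.sum_congr rfl fun k _ => map_smul _ _ _
    constructor
    · rw [injective_iff_map_eq_zero]
      intro x hx
      have hx1 : A x = 0 := congrArg Prod.fst hx
      have hx2 : (fun k : C => x k.1) = 0 := by
        have : φ (fun k : C => x k.1) = 0 := congrArg Prod.snd hx
        exact (LinearEquiv.map_eq_zero_iff φ).1 this
      have hx3 : ∀ k, k ∉ Set.range J → x k = 0 := fun k hk => congrFun hx2 ⟨k, hk⟩
      have hx4 : M.mulVec (fun b => x (J b)) = 0 := by
        funext a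
        have h5 := congrFun hx1 a
        rw [hAx, Finset.sum_apply] at h5
        have h6 : ∑ k, (x k • A (Pi.single k 1)) a =
            ∑ k ∈ Finset.univ.image J, (x k • A (Pi.single k 1)) a := by
          symm
          apply Finset.sum_subset (Finset.subset_univ _)
          intro k _ hk
          have : k ∉ Set.range J := by
            rintro ⟨b, rfl⟩
            exact hk (Finset.mem_image_of_mem _ (Finset.mem_univ _))
          rw [hx3 k this]; simp
        rw [h6, Finset.sum_image (fun a _ b _ h => hJ h)] at h5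
        rw [Pi.zero_apply, ← Pi.zero_apply (M := fun _ => ℂ) a, ← h5]
        simp only [Matrix.mulVec, dotProduct, hM, Matrix.of_apply, Pi.smul_apply, smul_eq_mul]
        exact Finset.sum_congr rfl fun b _ => mul_comm _ _
      have hx5 : (fun b => x (J b)) = 0 := Matrix.eq_zero_of_mulVec_eq_zero hMd hx4
      funext k
      by_cases hk : k ∈ Set.range J
      · obtain ⟨b, rfl⟩ := hk
        exact congrFun hx5 b
      · exact hx3 k hk
    · intro v
      have hcr : ∀ k, A (Pi.single k 1) =
          ∑ b, (mnr A (Function.update J b k) / mnr A J) • A (Pi.single (J b) 1) := by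
        intro k
        have h7 := Matrix.mulVec_cramer M (A (Pi.single k 1))
        have h8 : ∀ b, Matrix.cramer M (A (Pi.single k 1)) b = mnr A (Function.update J b k) := by
          intro b
          rw [Matrix.cramer_apply]
          unfold mnr
          congr 1
          ext a b'
          rw [Matrix.updateCol_apply, Matrix.of_apply]
          by_cases h : b' = b
          · subst h; simp
          · rw [if_neg h, Function.update_of_ne h, hM, Matrix.of_apply]
        have h9 : mnr A J • A (Pi.single k 1) = ∑ b, mnr A (Function.update J b k) •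
            A (Pi.single (J b) 1) := by
          change M.det • A (Pi.single k 1) = _
          rw [← h7]
          funext a
          simp only [Matrix.mulVec, dotProduct, Finset.sum_apply, Pi.smul_apply, smul_eq_mul, h8]
          refine Finset.sum_congr rfl fun b _ => ?_
          rw [hM, Matrix.of_apply, mul_comm]
        have h10 : A (Pi.single k 1) = (mnr A J)⁻¹ • (mnr A J • A (Pi.single k 1)) := by
          rw [smul_smul, inv_mul_cancel₀ hA, one_smul]
        rw [h10, h9, Finset.smul_sum]
        refine Finset.sum_congr rfl fun b _ => ?_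
        rw [smul_smul, div_eq_inv_mul]
      change A (s₀ v) = ∑ b, (∑ k, s₀ v k * (mnr A (Function.update J b k) / mnr A J)) •
        A (Pi.single (J b) 1)
      rw [hAx (s₀ v)]
      simp_rw [Finset.sum_smul]
      rw [Finset.sum_comm]
      refine Finset.sum_congr rfl fun k _ => ?_
      conv_lhs => rw [hcr k, Finset.smul_sum]
      exact Finset.sum_congr rfl fun b _ => smul_smul _ _ _

end Vale.Agent.P281.H431
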